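import Vale.Agent.P011.RP.Basic

/-!
Hermitian matrices of signature `(n - 1, 1)`.
-/

open Matrix

namespace Vale.Agent.P011.Tpl

open Vale.Agent.P011.RP (RData)

/-- The hermitian matrix has signature `(n - 1, 1)` or `(1, n - 1)`. -/
def Lor {n : ℕ} (A : Matrix (Fin n) (Fin n) ℂ) : Prop :=
  ∃ (Q : Matrix (Fin n) (Fin n) ℂ) (e : Fin n → ℝ) (i₀ : Fin n), IsUnit Q ∧
    Q * A * Qᴴ = Matrix.diagonal (fun i => (e i : ℂ)) ∧ e i₀ ≠ 0 ∧ ∀ i, i ≠ i₀ → e i * e i₀ < 0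

/-- The involution of `D` has signature `(n - 1, 1)` at no real place of the fixed field. -/
def Sgd (K D : Type) [Field K] [StarRing K] [DivisionRing D] [StarRing D] [Algebra K D]
    (n : ℕ) : Prop :=
  ∀ R : RData K D n, ¬ Lor R.A

end Vale.Agent.P011.Tpl
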